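import Mathlib
import Crest.Prelude.Def_Sensitivity

/-!
A super-quadratic gap between sensitivity and block sensitivity: nested chains of functions and
tournament steps.
-/

set_option autoImplicit false
set_option linter.unusedVariables false
set_option linter.unusedSectionVars false

namespace Crest.Agent.Sens

open Finset

section basic

variable {V : Type} [Fintype V] [DecidableEq V]

def flip (x : V → Bool) (e : V) : V → Bool := fun v => if v = e then !x v else x v

open Classical in
noncomputable def sens (g : (V → Bool) → Prop) (x : V → Bool) : Finset V :=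
  univ.filter fun e => ¬ (g (flip x e) ↔ g x)

theorem mem_sens {g : (V → Bool) → Prop} {x : V → Bool} {e : V} :
    e ∈ sens g x ↔ ¬ (g (flip x e) ↔ g x) := by simp [sens]

def S0 (g : (V → Bool) → Prop) (a : ℕ) : Prop := ∀ x, ¬ g x → (sens g x).card ≤ a
def S1 (g : (V → Bool) → Prop) (a : ℕ) : Prop := ∀ x, g x → (sens g x).card ≤ a

theorem S0.mono {g : (V → Bool) → Prop} {a b : ℕ} (h : S0 g a) (hab : a ≤ b) : S0 g b :=
  fun x hx => (h x hx).trans hab
theorem S1.mono {g : (V → Bool) → Prop} {a b : ℕ} (h : S1 g a) (hab : a ≤ b) : S1 g b :=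
  fun x hx => (h x hx).trans hab
theorem S0_card (g : (V → Bool) → Prop) : S0 g (Fintype.card V) := fun x _ => card_le_univ _
theorem S1_card (g : (V → Bool) → Prop) : S1 g (Fintype.card V) := fun x _ => card_le_univ _

def Adj (x y : V → Bool) : Prop := ∀ a b, x a ≠ y a → x b ≠ y b → a = b

omit [Fintype V] [DecidableEq V] in
theorem Adj.symm {x y : V → Bool} (h : Adj x y) : Adj y x := fun a b h1 h2 => h a b h1.symm h2.symm

omit [Fintype V] [DecidableEq V] in
theorem Adj.rfl (x : V → Bool) : Adj x x := fun a b h => absurd (Eq.refl _) h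

omit [Fintype V] in
theorem adj_flip (x : V → Bool) (e : V) : Adj x (flip x e) := by
  intro a b h1 h2
  unfold flip at h1 h2
  split_ifs at h1 h2 <;> simp_all

def Lip (G : ℤ → (V → Bool) → Prop) : Prop := ∀ u x y, Adj x y → G (u + 1) x → G u y

omit [Fintype V] [DecidableEq V] in
theorem Lip.anti {G : ℤ → (V → Bool) → Prop} (h : Lip G) {u v : ℤ} (huv : v ≤ u) {x : V → Bool}
    (hx : G u x) : G v x := by
  induction u, huv using Int.leInduction with
  | base => exact hx
  | succ u _ ih => exact ih (h u x x (Adj.rfl x) hx)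

/-- disjoint blocks, given by their indicator inputs -/
def Disj {ι : Type} (blk : ι → V → Bool) : Prop :=
  ∀ i j v, blk i v = true → blk j v = true → i = j

end basic

section step

variable {V κ : Type} [Fintype V] [DecidableEq V] [Fintype κ] [DecidableEq κ]

def sec (x : κ × V → Bool) (i : κ) : V → Bool := fun v => x (i, v)

omit [Fintype V] [Fintype κ] in
theorem sec_flip_ne (x : κ × V → Bool) (e : κ × V) (i : κ) (h : e.1 ≠ i) :
    sec (flip x e) i = sec x i := by
  funext v
  simp only [sec, flip]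
  rw [if_neg]
  rintro rfl
  exact h rfl

omit [Fintype V] [Fintype κ] in
theorem sec_flip_eq (x : κ × V → Bool) (e : κ × V) :
    sec (flip x e) e.1 = flip (sec x e.1) e.2 := by
  funext v
  obtain ⟨i, w⟩ := e
  simp [sec, flip]

omit [Fintype V] [Fintype κ] [DecidableEq V] [DecidableEq κ] in
theorem Adj.sec {x y : κ × V → Bool} (h : Adj x y) (i : κ) : Adj (sec x i) (sec y i) :=
  fun a b h1 h2 => (Prod.mk.inj (h (i, a) (i, b) h1 h2)).2

/-- coordinates whose flip changes `g` on the `i`-th section -/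
noncomputable def sensAt (g : (V → Bool) → Prop) (x : κ × V → Bool) (i : κ) : Finset (κ × V) :=
  (sens g (sec x i)).image fun v => (i, v)

theorem card_sensAt (g : (V → Bool) → Prop) (x : κ × V → Bool) (i : κ) :
    (sensAt g x i).card ≤ (sens g (sec x i)).card := card_image_le

theorem mem_sensAt {g : (V → Bool) → Prop} {x : κ × V → Bool} {i : κ} {e : κ × V}
    (h : ¬ (g (sec (flip x e) i) ↔ g (sec x i))) : e ∈ sensAt g x i := by
  by_cases hi : e.1 = i
  · subst hi
    rw [sec_flip_eq] at h
    exact mem_image.2 ⟨e.2, mem_sens.2 h, rfl⟩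
  · rw [sec_flip_ne x e i hi] at h
    exact absurd Iff.rfl h

def tour (N : κ → Finset κ) (p : ℤ) (G : ℤ → (V → Bool) → Prop) (u : ℤ) (x : κ × V → Bool) : Prop :=
  ∃ i, G u (sec x i) ∧ (p < u → ∀ j ∈ N i, ¬ G (2 * p - u) (sec x j))

omit [Fintype V] [Fintype κ] [DecidableEq V] [DecidableEq κ] in
theorem tour_lip (N : κ → Finset κ) (p : ℤ) {G : ℤ → (V → Bool) → Prop} (h : Lip G) :
    Lip (tour N p G) := by
  rintro u x y hxy ⟨i, h1, h2⟩
  refine ⟨i, h _ _ _ (hxy.sec i) h1, fun hp j hj h3 => h2 (by omega) j hj ?_⟩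
  refine h _ _ _ (hxy.symm.sec j) ?_
  convert h3 using 1
  ring

theorem tour_S1 (N : κ → Finset κ) (p : ℤ) {G : ℤ → (V → Bool) → Prop} {u : ℤ} {a b m : ℕ}
    (hN : ∀ i, (N i).card ≤ m) (hu : p < u) (h1 : S1 (G u) a) (h0 : S0 (G (2 * p - u)) b) :
    S1 (tour N p G u) (a + m * b) := by
  rintro x ⟨i, hi, hj⟩
  have hsub : sens (tour N p G u) x ⊆
      sensAt (G u) x i ∪ (N i).biUnion fun j => sensAt (G (2 * p - u)) x j := by
    intro e he
    rw [mem_sens] at he
    by_contra hne
    simp only [mem_union, mem_biUnion, not_or, not_exists, not_and] at hne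
    refine he (iff_of_true ⟨i, ?_, fun _ j hj' => ?_⟩ ⟨i, hi, hj⟩)
    · by_contra h
      exact hne.1 (mem_sensAt fun h' => h (h'.2 hi))
    · intro h
      exact hne.2 j hj' (mem_sensAt fun h' => hj hu j hj' (h'.1 h))
  refine (card_le_card hsub).trans ((card_union_le _ _).trans (add_le_add ?_ ?_))
  · exact (card_sensAt _ _ _).trans (h1 _ hi)
  · refine (card_biUnion_le_card_mul _ _ b fun j hj' => ?_).trans (by gcongr; exact hN i)
    exact (card_sensAt _ _ _).trans (h0 _ (hj hu j hj'))

theorem tour_S0 (N : κ → Finset κ) (p : ℤ) {G : ℤ → (V → Bool) → Prop} (hG : Lip G) {u : ℤ} {a : ℕ}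
    (hN : ∀ i j, i ≠ j → j ∈ N i ∨ i ∈ N j) (hu : p < u) (h0 : S0 (G u) a)
    (h1 : S1 (G (2 * p - u)) a) : S0 (tour N p G u) a := by
  intro x hx
  have key : ∀ e e' i i', G u (sec (flip x e) i) → (∀ j ∈ N i, ¬ G (2 * p - u) (sec (flip x e) j)) →
      G u (sec (flip x e') i') → i' ∉ N i := by
    intro e e' i i' _ h2 h3 h4
    refine h2 i' h4 (hG.anti (by omega : 2 * p - u ≤ u - 2) ?_)
    refine hG _ _ _ ((adj_flip x e).sec i') (hG _ _ _ ((adj_flip x e').symm.sec i') ?_)
    convert h3 using 1
    ring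
  have hs : ∀ e ∈ sens (tour N p G u) x, tour N p G u (flip x e) := fun e he => by
    rw [mem_sens] at he
    tauto
  rcases (sens (tour N p G u) x).eq_empty_or_nonempty with h | ⟨e0, he0⟩
  · simp [h]
  obtain ⟨i, hi1, hi2⟩ := hs e0 he0
  have hall : ∀ e ∈ sens (tour N p G u) x,
      G u (sec (flip x e) i) ∧ ∀ j ∈ N i, ¬ G (2 * p - u) (sec (flip x e) j) := by
    intro e he
    obtain ⟨i', h3, h4⟩ := hs e he
    by_cases h : i = i'
    · subst h; exact ⟨h3, h4 hu⟩
    · rcases hN i i' h with h5 | h5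
      · exact absurd h5 (key e0 e i i' hi1 (hi2 hu) h3)
      · exact absurd h5 (key e e0 i' i h3 (h4 hu) hi1)
  by_cases hxi : G u (sec x i)
  · obtain ⟨j, hj, hj'⟩ : ∃ j ∈ N i, G (2 * p - u) (sec x j) := by
      by_contra hne
      push Not at hne
      exact hx ⟨i, hxi, fun _ => hne⟩
    refine le_trans (card_le_card fun e he => ?_) ((card_sensAt _ x j).trans (h1 _ hj'))
    exact mem_sensAt fun h' => (hall e he).2 j hj (h'.2 hj')
  · refine le_trans (card_le_card fun e he => ?_) ((card_sensAt _ x i).trans (h0 _ hxi))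
    exact mem_sensAt fun h' => hxi (h'.1 (hall e he).1)

def blkS {ι : Type} (blk : ι → V → Bool) (z : κ × ι) (e : κ × V) : Bool :=
  decide (e.1 = z.1) && blk z.2 e.2

omit [Fintype V] [Fintype κ] [DecidableEq V] in
theorem blkS_disj {ι : Type} {blk : ι → V → Bool} (h : Disj blk) : Disj (blkS (κ := κ) blk) := by
  rintro ⟨i, a⟩ ⟨j, b⟩ ⟨k, v⟩ h1 h2
  simp only [blkS, Bool.and_eq_true, decide_eq_true_eq] at h1 h2
  exact Prod.ext (h1.1.symm.trans h2.1) (h _ _ _ h1.2 h2.2)

omit [Fintype V] [Fintype κ] [DecidableEq V] in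
theorem sec_blkS_eq {ι : Type} (blk : ι → V → Bool) (z : κ × ι) : sec (blkS blk z) z.1 = blk z.2 := by
  funext v; simp [sec, blkS]

omit [Fintype V] [Fintype κ] [DecidableEq V] in
theorem sec_blkS_ne {ι : Type} (blk : ι → V → Bool) (z : κ × ι) (j : κ) (h : j ≠ z.1) :
    sec (blkS blk z) j = fun _ => false := by
  funext v; simp [sec, blkS, h]

end step

def cyc (m : ℕ) (i : Fin (2 * m + 1)) : Finset (Fin (2 * m + 1)) :=
  univ.filter fun j => (i.1 < j.1 ∧ j.1 ≤ i.1 + m) ∨ j.1 + m < i.1

theorem cyc_card (m : ℕ) (i : Fin (2 * m + 1)) : (cyc m i).card ≤ m := by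
  have h : (cyc m i).image Fin.val ⊆ Ioc i.1 (min (i.1 + m) (2 * m)) ∪ range (i.1 - m) := by
    intro j hj
    obtain ⟨j, hj', rfl⟩ := mem_image.1 hj
    have := j.2
    simp only [cyc, mem_filter, mem_univ, true_and] at hj'
    simp only [mem_union, mem_Ioc, mem_range]
    omega
  have h2 := (card_le_card h).trans (card_union_le _ _)
  rw [card_image_of_injective _ Fin.val_injective, Nat.card_Ioc, card_range] at h2
  have := i.2
  omega

theorem cyc_total (m : ℕ) (i j : Fin (2 * m + 1)) (h : i ≠ j) : j ∈ cyc m i ∨ i ∈ cyc m j := by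
  have : i.1 ≠ j.1 := fun h' => h (Fin.ext h')
  simp only [cyc, mem_filter, mem_univ, true_and]
  omega

theorem cyc_irrefl (m : ℕ) (i j : Fin (2 * m + 1)) (h : j ∈ cyc m i) : j ≠ i := by
  rintro rfl
  simp only [cyc, mem_filter, mem_univ, true_and] at h
  omega

theorem chain (t : ℕ) : ∃ (V ι : Type) (_ : Fintype V) (_ : DecidableEq V) (_ : Fintype ι)
    (G : ℤ → (V → Bool) → Prop) (blk : ι → V → Bool) (A B : ℕ), Lip G ∧ Disj blk ∧
    (∀ u, 1 ≤ u → ¬ G u fun _ => false) ∧ (∀ i, G 120 (blk i)) ∧ 1 ≤ A ∧ A ≤ B ∧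
    S0 (G (60 + 2 * t)) A ∧ S1 (G (60 + 2 * t)) B ∧ (∀ u, 60 + 2 * (t : ℤ) < u → S0 (G u) B) ∧
    3 ^ t * (A * B) ≤ 2 ^ t * (14400 * Fintype.card ι) := by
  induction t with
  | zero =>
    refine ⟨Fin 120, Unit, inferInstance, inferInstance, inferInstance,
      fun u x => u ≤ (univ.filter fun v => x v = true).card, fun _ _ => true, 120, 120, ?_,
      fun _ _ _ _ _ => rfl, fun u hu => by simp; omega, fun _ => by simp, by norm_num, le_rfl,
      S0_card _, S1_card _, fun u _ => S0_card _, by simp⟩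
    intro u x y hxy h
    have : (univ.filter fun v => x v = true).card ≤ (univ.filter fun v => y v = true).card + 1 := by
      have h1 : (univ.filter fun v => x v ≠ y v).card ≤ 1 :=
        card_le_one.2 fun a ha b hb => hxy a b (by simpa using ha) (by simpa using hb)
      refine le_trans (card_le_card ?_) ((card_union_le _ _).trans (Nat.add_le_add_left h1 _))
      intro v
      simp only [mem_filter, mem_univ, true_and, mem_union]
      cases x v <;> cases y v <;> simp
    omega
  | succ t ih =>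
    obtain ⟨V, ι, _, _, _, G, blk, A, B, hL, hD, h0, hb, hA, hAB, hS0, hS1, hup, hR⟩ := ih
    set n := Fintype.card V
    set m := 3 * (n + B) with hm
    have e : (2 * (61 + 2 * t) - (60 + 2 * ((t + 1 : ℕ) : ℤ)) : ℤ) = 60 + 2 * t := by
      push_cast; ring
    refine ⟨Fin (2 * m + 1) × V, Fin (2 * m + 1) × ι, inferInstance, inferInstance, inferInstance,
      tour (cyc m) (61 + 2 * t) G, blkS blk, B, n + B + m * A, tour_lip _ _ hL, blkS_disj hD, ?_, ?_,
      hA.trans hAB, by omega, ?_, ?_, ?_, ?_⟩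
    · rintro u hu ⟨i, h, -⟩
      exact h0 u hu h
    · intro z
      refine ⟨z.1, by rw [sec_blkS_eq]; exact hb _, fun hp j hj => ?_⟩
      rw [sec_blkS_ne _ _ _ (cyc_irrefl _ _ _ hj)]
      exact h0 _ (by omega)
    · refine tour_S0 _ _ hL (cyc_total m) (by push_cast; omega) (hup _ (by push_cast; omega)) ?_
      rw [e]; exact hS1
    · refine tour_S1 _ _ (cyc_card m) (by push_cast; omega) ((S1_card _).mono (by omega)) ?_
      rw [e]; exact hS0
    · intro u hu
      exact tour_S0 _ _ hL (cyc_total m) (by push_cast at hu; omega) ((S0_card _).mono (by omega))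
        ((S1_card _).mono (by omega))
    · have h1 : 3 * (n + B + m * A) ≤ 4 * m * A := by nlinarith
      rw [Fintype.card_prod, Fintype.card_fin]
      calc 3 ^ (t + 1) * (B * (n + B + m * A)) = 3 ^ t * B * (3 * (n + B + m * A)) := by ring
        _ ≤ 3 ^ t * B * (4 * m * A) := by gcongr
        _ = 4 * m * (3 ^ t * (A * B)) := by ring
        _ ≤ 4 * m * (2 ^ t * (14400 * Fintype.card ι)) := by gcongr
        _ = 2 ^ (t + 1) * (14400 * ((2 * m) * Fintype.card ι)) := by ring
        _ ≤ _ := by gcongr; omega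

/-- a function with `b` disjoint sensitive blocks at zero and sensitivity at most `s` -/
def Good (s b : ℕ) : Prop := ∃ (V ι : Type) (_ : Fintype V) (_ : DecidableEq V) (_ : Fintype ι)
    (g : (V → Bool) → Prop) (blk : ι → V → Bool), Disj blk ∧ (¬ g fun _ => false) ∧
    (∀ i, g (blk i)) ∧ (∀ x, (sens g x).card ≤ s) ∧ Fintype.card ι = b

theorem exists_good : ∃ s b, 2 ≤ s ∧ s ^ 2 < b ∧ Good s b := by
  obtain ⟨V, ι, _, _, _, G, blk, A, B, hL, hD, h0, hb, hA, hAB, hS0, hS1, -, hR⟩ := chain 30
  have e : (60 + 2 * ((30 : ℕ) : ℤ)) = 120 := by norm_num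
  rw [e] at hS0 hS1
  set k := B / A + 1 with hk
  have h1 : B < k * A := by rw [hk, mul_comm]; exact Nat.lt_mul_div_succ B hA
  have h2 : k * A ≤ 2 * B := by
    have := Nat.div_mul_le_self B A
    rw [hk, add_mul]; omega
  refine ⟨k * A, k * Fintype.card ι, by omega, ?_, Fin k × V, Fin k × ι, inferInstance,
    inferInstance, inferInstance, fun x => ∃ i, G 120 (sec x i), blkS blk, blkS_disj hD, ?_, ?_, ?_,
    by simp⟩
  · have h3 : 2 * (A * B) < Fintype.card ι := by
      have : 1 ≤ A * B := Nat.mul_pos hA (by omega)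
      omega
    have hk0 : 0 < k := Nat.succ_pos _
    calc (k * A) ^ 2 = k * A * (k * A) := by ring
      _ ≤ k * A * (2 * B) := by gcongr
      _ = k * (2 * (A * B)) := by ring
      _ < _ := by gcongr
  · rintro ⟨i, h⟩
    exact h0 _ (by norm_num) h
  · exact fun z => ⟨z.1, by rw [sec_blkS_eq]; exact hb _⟩
  · intro x
    by_cases hx : ∃ i, G 120 (sec x i)
    · obtain ⟨i, hi⟩ := hx
      refine le_trans (card_le_card fun e he => ?_)
        ((card_sensAt _ x i).trans ((hS1 _ hi).trans h1.le))
      exact mem_sensAt fun h' => mem_sens.1 he (iff_of_true ⟨i, h'.2 hi⟩ ⟨i, hi⟩)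
    · have hsub : sens (fun x : Fin k × V → Bool => ∃ i, G 120 (sec x i)) x ⊆
          univ.biUnion fun i => sensAt (G 120) x i := by
        intro e he
        rw [mem_sens] at he
        obtain ⟨i, hi⟩ : ∃ i, G 120 (sec (flip x e) i) := by tauto
        exact mem_biUnion.2 ⟨i, mem_univ _, mem_sensAt fun h' => hx ⟨i, h'.1 hi⟩⟩
      refine (card_le_card hsub).trans ((card_biUnion_le_card_mul _ _ A fun i _ => ?_).trans (by simp))
      exact (card_sensAt _ x i).trans (hS0 _ fun h => hx ⟨i, h⟩)

theorem Good.mul {s b s' b' : ℕ} (h : Good s b) (h' : Good s' b') : Good (s * s') (b * b') := by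
  classical
  obtain ⟨V, ι, _, _, _, g, blk, hD, h0, hb, hs, rfl⟩ := h
  obtain ⟨V', ι', _, _, _, g', blk', hD', h0', hb', hs', rfl⟩ := h'
  refine ⟨V × V', ι × ι', inferInstance, inferInstance, inferInstance,
    fun x => g fun a => decide (g' (sec x a)), fun z e => blk z.1 e.1 && blk' z.2 e.2, ?_, ?_, ?_, ?_,
    by simp⟩
  · rintro ⟨i, a⟩ ⟨j, b⟩ ⟨k, v⟩ h1 h2
    simp only [Bool.and_eq_true] at h1 h2
    exact Prod.ext (hD _ _ _ h1.1 h2.1) (hD' _ _ _ h1.2 h2.2)
  · convert h0 using 3
    exact decide_eq_false h0'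
  · intro z
    convert hb z.1 using 2 with a
    cases h : blk z.1 a
    · refine decide_eq_false ?_
      convert h0' using 2
      funext v; simp [sec, h]
    · refine decide_eq_true ?_
      convert hb' z.2 using 1
      funext v; simp [sec, h]
  · intro x
    have hsub : sens (fun x : V × V' → Bool => g fun a => decide (g' (sec x a))) x ⊆
        (sens g fun a => decide (g' (sec x a))).biUnion fun a => sensAt g' x a := by
      intro e he
      rw [mem_sens] at he
      have h1 : ¬ (g' (sec (flip x e) e.1) ↔ g' (sec x e.1)) := by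
        intro h1
        refine he (iff_of_eq (congrArg g (funext fun a => ?_)))
        by_cases ha : e.1 = a
        · subst ha; exact decide_eq_decide.2 h1
        · rw [sec_flip_ne x e a ha]
      refine mem_biUnion.2 ⟨e.1, mem_sens.2 ?_, mem_sensAt h1⟩
      convert he using 3
      funext a
      by_cases ha : e.1 = a
      · subst ha
        simp only [flip, if_true]
        by_cases h2 : g' (sec x e.1) <;> simp_all
      · rw [sec_flip_ne x e a ha]; simp [flip, Ne.symm ha]
    refine (card_le_card hsub).trans ((card_biUnion_le_card_mul _ _ s' fun i _ => ?_).trans ?_)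
    · exact (card_sensAt _ x i).trans (hs' _)
    · gcongr; exact hs _

theorem Good.pow {s b : ℕ} (h : Good s b) (k : ℕ) : Good (s ^ (k + 1)) (b ^ (k + 1)) := by
  induction k with
  | zero => simpa using h
  | succ k ih => rw [pow_succ s, pow_succ b]; exact ih.mul h

open Crest.BoolCube in
theorem Good.fin {s b : ℕ} (h : Good s b) (hb : 1 ≤ b) : ∃ (n : ℕ) (f : (Fin n → Bool) → Bool),
    (∃ x y, f x ≠ f y) ∧ b ≤ blockSensitivity f ∧ sensitivity f ≤ s := by
  classical
  obtain ⟨V, ι, _, _, _, g, blk, hD, h0, hblk, hs, rfl⟩ := h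
  let e := Fintype.equivFin V
  let e' := Fintype.equivFin ι
  refine ⟨Fintype.card V, fun x => decide (g fun v => x (e v)), ?_, ?_, ?_⟩
  · refine ⟨fun _ => false, fun a => blk (e'.symm ⟨0, hb⟩) (e.symm a), ?_⟩
    simp [h0, hblk]
  · refine le_trans ?_ (le_sup (f := blockSensitivityAt _) (mem_univ fun _ => false))
    refine le_csSup ⟨Fintype.card V, ?_⟩ ⟨fun j => univ.filter fun a => blk (e'.symm j) (e.symm a), ?_, ?_, ?_⟩
    · rintro m ⟨B, h1, h2, -⟩
      choose c hc using h1
      have : Function.Injective c := fun i j hij => by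
        by_contra hne
        exact disjoint_left.1 (h2 i j hne) (hc i) (hij ▸ hc j)
      simpa using Fintype.card_le_of_injective c this
    · intro j
      by_contra hne
      rw [not_nonempty_iff_eq_empty, filter_eq_empty_iff] at hne
      refine h0 ?_
      convert hblk (e'.symm j) using 1
      funext v
      simpa using hne (mem_univ (e v))
    · intro i j hij
      refine disjoint_left.2 fun a ha hb => hij (e'.symm.injective (hD _ _ (e.symm a) ?_ ?_))
      · simpa using ha
      · simpa using hb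
    · intro j
      have : (fun v => flipCoords (fun _ => false)
          (univ.filter fun a => blk (e'.symm j) (e.symm a)) (e v)) = blk (e'.symm j) := by
        funext v
        simp [flipCoords]
      simp [this, h0, hblk]
  · refine Finset.sup_le fun x _ => le_trans ?_ (hs fun v => x (e v))
    refine card_le_card_of_injOn e.symm (fun a ha => ?_) (e.symm.injective.injOn)
    have : (fun v => flipCoords x {a} (e v)) = flip (fun v => x (e v)) (e.symm a) := by
      funext v
      simp [flipCoords, flip, Equiv.eq_symm_apply]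
    simpa [mem_sens, this] using ha

end Crest.Agent.Sens
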